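import Vale.Agent.P281.H511.TK.Spec

/-!
# P281, project T-K, block FLAT, ALG1 (helper399): change of coordinates for `vec`
-/

open Set Filter Metric MeasureTheory Vale.Agent.P272.K Vale.Agent.P281.H64.TK
  Vale.Agent.P281.H511.TK
open scoped Topology ContDiff ComplexConjugate ComplexOrder

noncomputable section

namespace Vale.Agent.P281.H399.K

variable {d : ℕ}

/-- the coordinate vectors are linearly independent -/
theorem bas_li (d : ℕ) : LinearIndependent ℝ (bas : Ix d → ℝ × Cm d) := by
  rw [Fintype.linearIndependent_iff]
  intro g hg i
  have h1 := congrArg (fun q => cd i q) hg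
  rcases i with _ | ⟨k, _ | _⟩
  · simpa [cd, Fintype.sum_option, Fintype.sum_prod_type, bas, Prod.fst_sum] using h1
  · simp [cd, Fintype.sum_option, Fintype.sum_prod_type, bas, Prod.snd_sum, Finset.sum_add_distrib,
      Finset.sum_apply, Pi.single_apply, Complex.add_re] at h1
    simpa using h1
  · simp [cd, Fintype.sum_option, Fintype.sum_prod_type, bas, Prod.snd_sum, Finset.sum_add_distrib,
      Finset.sum_apply, Pi.single_apply, Complex.add_im] at h1
    simpa using h1

theorem bas_expand (q : ℝ × Cm d) : ∑ i, cd i q • bas i = q := by
  refine Prod.ext ?_ ?_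
  · simp [cd, Fintype.sum_option, Fintype.sum_prod_type, bas, Prod.fst_sum]
  · funext k
    simp only [cd, Fintype.sum_option, Fintype.sum_prod_type, bas, Prod.snd_sum,
      Finset.sum_apply, Prod.snd_add, Prod.smul_snd, smul_zero, Fintype.sum_bool,
      Pi.add_apply, Pi.smul_apply]
    rw [Finset.sum_eq_single k]
    · simp only [Pi.single_eq_same, Complex.real_smul, mul_one, Pi.zero_apply, zero_add]
      rw [add_comm]
      exact Complex.re_add_im _
    · intro j _ hj
      simp [Pi.single_eq_of_ne (Ne.symm hj)]
    · intro h
      exact absurd (Finset.mem_univ k) h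

/-- the real basis -/
def bs (d : ℕ) : Module.Basis (Ix d) ℝ (ℝ × Cm d) :=
  Module.Basis.mk (bas_li d) (by
    intro q _
    rw [← bas_expand q]
    exact Submodule.sum_mem _ fun i _ =>
      Submodule.smul_mem _ _ (Submodule.subset_span (mem_range_self i)))

theorem bs_apply (i : Ix d) : bs d i = bas i := by
  simp [bs]

/-- the form `a ⊗ b 0 ⊗ ⋯` -/
def mm (b : Fin d → Bi d) (a : (ℝ × Cm d) →ₗ[ℝ] ℝ) :
    MultilinearMap ℝ (fun _ : Ix d => ℝ × Cm d) ℝ where
  toFun x := a (x none) * ∏ k, b k (x (some (k, false))) (x (some (k, true)))
  map_update_add' := by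
    intro inst x i u v
    rcases i with _ | ⟨k, _ | _⟩
    · simp [Function.update_of_ne, add_mul]
    · simp only [Function.update_of_ne (show (none : Ix d) ≠ some (k, false) by simp)]
      rw [← Finset.mul_prod_erase Finset.univ _ (Finset.mem_univ k),
        ← Finset.mul_prod_erase Finset.univ _ (Finset.mem_univ k),
        ← Finset.mul_prod_erase Finset.univ _ (Finset.mem_univ k)]
      have h : ∀ w : ℝ × Cm d, ∏ j ∈ Finset.univ.erase k,
          b j (Function.update x (some (k, false)) w (some (j, false)))
            (Function.update x (some (k, false)) w (some (j, true))) =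
          ∏ j ∈ Finset.univ.erase k, b j (x (some (j, false))) (x (some (j, true))) := by
        intro w
        refine Finset.prod_congr rfl fun j hj => ?_
        have hj' : j ≠ k := Finset.ne_of_mem_erase hj
        rw [Function.update_of_ne (by simp [hj']), Function.update_of_ne (by simp)]
      rw [h, h, h]
      simp only [Function.update_self, Function.update_of_ne
        (show (some (k, true) : Ix d) ≠ some (k, false) by simp)]
      rw [map_add, add_apply]
      ring
    · simp only [Function.update_of_ne (show (none : Ix d) ≠ some (k, true) by simp)]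
      rw [← Finset.mul_prod_erase Finset.univ _ (Finset.mem_univ k),
        ← Finset.mul_prod_erase Finset.univ _ (Finset.mem_univ k),
        ← Finset.mul_prod_erase Finset.univ _ (Finset.mem_univ k)]
      have h : ∀ w : ℝ × Cm d, ∏ j ∈ Finset.univ.erase k,
          b j (Function.update x (some (k, true)) w (some (j, false)))
            (Function.update x (some (k, true)) w (some (j, true))) =
          ∏ j ∈ Finset.univ.erase k, b j (x (some (j, false))) (x (some (j, true))) := by
        intro w
        refine Finset.prod_congr rfl fun j hj => ?_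
        have hj' : j ≠ k := Finset.ne_of_mem_erase hj
        rw [Function.update_of_ne (by simp), Function.update_of_ne (by simp [hj'])]
      rw [h, h, h]
      simp only [Function.update_self, Function.update_of_ne
        (show (some (k, false) : Ix d) ≠ some (k, true) by simp)]
      rw [map_add]
      ring
  map_update_smul' := by
    intro inst x i c u
    rcases i with _ | ⟨k, _ | _⟩
    · simp [Function.update_of_ne, mul_assoc]
    · simp only [Function.update_of_ne (show (none : Ix d) ≠ some (k, false) by simp)]
      rw [← Finset.mul_prod_erase Finset.univ _ (Finset.mem_univ k),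
        ← Finset.mul_prod_erase Finset.univ _ (Finset.mem_univ k)]
      have h : ∀ w : ℝ × Cm d, ∏ j ∈ Finset.univ.erase k,
          b j (Function.update x (some (k, false)) w (some (j, false)))
            (Function.update x (some (k, false)) w (some (j, true))) =
          ∏ j ∈ Finset.univ.erase k, b j (x (some (j, false))) (x (some (j, true))) := by
        intro w
        refine Finset.prod_congr rfl fun j hj => ?_
        have hj' : j ≠ k := Finset.ne_of_mem_erase hj
        rw [Function.update_of_ne (by simp [hj']), Function.update_of_ne (by simp)]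
      rw [h, h]
      simp only [Function.update_self, Function.update_of_ne
        (show (some (k, true) : Ix d) ≠ some (k, false) by simp)]
      rw [map_smul, smul_apply, smul_eq_mul, smul_eq_mul]
      ring
    · simp only [Function.update_of_ne (show (none : Ix d) ≠ some (k, true) by simp)]
      rw [← Finset.mul_prod_erase Finset.univ _ (Finset.mem_univ k),
        ← Finset.mul_prod_erase Finset.univ _ (Finset.mem_univ k)]
      have h : ∀ w : ℝ × Cm d, ∏ j ∈ Finset.univ.erase k,
          b j (Function.update x (some (k, true)) w (some (j, false)))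
            (Function.update x (some (k, true)) w (some (j, true))) =
          ∏ j ∈ Finset.univ.erase k, b j (x (some (j, false))) (x (some (j, true))) := by
        intro w
        refine Finset.prod_congr rfl fun j hj => ?_
        have hj' : j ≠ k := Finset.ne_of_mem_erase hj
        rw [Function.update_of_ne (by simp), Function.update_of_ne (by simp [hj'])]
      rw [h, h]
      simp only [Function.update_self, Function.update_of_ne
        (show (some (k, false) : Ix d) ≠ some (k, true) by simp)]
      rw [map_smul, smul_eq_mul, smul_eq_mul]
      ring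

theorem mm_apply (b : Fin d → Bi d) (a : (ℝ × Cm d) →ₗ[ℝ] ℝ) (x : Ix d → ℝ × Cm d) :
    mm b a x = a (x none) * ∏ k, b k (x (some (k, false))) (x (some (k, true))) := rfl

theorem alt_apply (b : Fin d → Bi d) (a : (ℝ × Cm d) →ₗ[ℝ] ℝ) (x : Ix d → ℝ × Cm d) :
    MultilinearMap.alternatization (mm b a) x =
      a (∑ τ : Equiv.Perm (Ix d), (((Equiv.Perm.sign τ : ℤ) : ℝ) *
        ∏ k, b k (x (τ (some (k, false)))) (x (τ (some (k, true))))) • x (τ none)) := by
  rw [MultilinearMap.alternatization_apply, map_sum]
  refine Finset.sum_congr rfl fun τ _ => ?_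
  rw [map_smul, MultilinearMap.domDomCongr_apply, mm_apply, smul_eq_mul]
  rw [Units.smul_def, zsmul_eq_mul]
  ring

theorem alg1 : Alg1Stmt := by
  intro d L b b' h
  have key : ∀ a : (ℝ × Cm d) →ₗ[ℝ] ℝ, a (L (vec b')) = a (L.det • vec b) := by
    intro a
    have h1 := alt_apply b a (bas : Ix d → ℝ × Cm d)
    have h2 := alt_apply b a (fun i => L (bas i))
    have h3 : (∑ τ : Equiv.Perm (Ix d), (((Equiv.Perm.sign τ : ℤ) : ℝ) *
        ∏ k, b k (L (bas (τ (some (k, false))))) (L (bas (τ (some (k, true)))))) •
          L (bas (τ none))) = L (vec b') := by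
      rw [vec, map_sum]
      refine Finset.sum_congr rfl fun τ _ => ?_
      rw [map_smul]
      simp only [h]
    rw [h3] at h2
    rw [← h2]
    have h4 : (MultilinearMap.alternatization (mm b a)) =
        (MultilinearMap.alternatization (mm b a)) (bs d) • (bs d).det :=
      AlternatingMap.eq_smul_basis_det (bs d) _
    have h5 : (bs d : Ix d → ℝ × Cm d) = bas := by
      funext i
      exact bs_apply i
    rw [h5] at h4
    have h6 : (bs d).det (fun i => L (bas i)) = L.det := by
      have := Module.Basis.det_comp (bs d) (L : (ℝ × Cm d) →ₗ[ℝ] (ℝ × Cm d)) (bs d)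
      rw [Module.Basis.det_self, mul_one] at this
      rw [ContinuousLinearMap.det, ← this, h5]
      rfl
    rw [h4, AlternatingMap.smul_apply, h6, h1, map_smul, smul_eq_mul, smul_eq_mul, mul_comm]
    rfl
  have h7 := (bs d).repr.injective (a₁ := L (vec b')) (a₂ := L.det • vec b) (by
    ext i
    exact key ((bs d).coord i))
  exact h7

end Vale.Agent.P281.H399.K
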