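import Vale.Agent.P281.H399.K.Alg1

/-!
# P281, project T-K, block FLAT, ALG2 (helper399): `vec` of closed forms is divergence free
-/

open Set Filter Metric MeasureTheory Vale.Agent.P272.K Vale.Agent.P281.H64.TK
  Vale.Agent.P281.H511.TK
open scoped Topology ContDiff ComplexConjugate ComplexOrder

noncomputable section

namespace Vale.Agent.P281.H399.K

variable {d : ℕ}

theorem cd_bas (i j : Ix d) : cd i (bas j) = if i = j then 1 else 0 := by
  have h := (bs d).repr_self_apply j i
  rw [bs_apply] at h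
  have h2 : (bs d).repr (bas j) i = cd i (bas j) := by
    have h3 : ∀ q : ℝ × Cm d, (bs d).repr q i = cd i q := by
      intro q
      have h4 := bas_expand q
      conv_lhs => rw [← h4]
      rw [map_sum, Finset.sum_apply']
      rw [Finset.sum_eq_single i]
      · rw [map_smul, ← bs_apply, (bs d).repr_self]
        simp
      · intro k _ hk
        rw [map_smul, ← bs_apply, (bs d).repr_self]
        simp [hk]
      · intro h
        exact absurd (Finset.mem_univ i) h
    exact h3 _
  rw [h2] at h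
  rw [h]
  simp only [eq_comm]

theorem cd_sum {ι : Type*} (s : Finset ι) (i : Ix d) (f : ι → ℝ × Cm d) :
    cd i (∑ j ∈ s, f j) = ∑ j ∈ s, cd i (f j) := by
  rcases i with _ | ⟨k, _ | _⟩
  · simp [cd, Prod.fst_sum]
  · simp [cd, Prod.snd_sum]
  · simp [cd, Prod.snd_sum]

theorem cd_smul (i : Ix d) (c : ℝ) (f : ℝ × Cm d) : cd i (c • f) = c * cd i f := by
  rcases i with _ | ⟨k, _ | _⟩ <;> simp [cd]

/-- the product without the factor `j` -/
def pr (b : Fin d → Bi d) (j : Fin d) (τ : Equiv.Perm (Ix d)) : ℝ :=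
  ∏ k ∈ Finset.univ.erase j, b k (bas (τ (some (k, false)))) (bas (τ (some (k, true))))

theorem pr_mul (b : Fin d → Bi d) (j : Fin d) (τ σ : Equiv.Perm (Ix d))
    (h : ∀ k, k ≠ j → ∀ c, σ (some (k, c)) = some (k, c)) : pr b j (τ * σ) = pr b j τ := by
  refine Finset.prod_congr rfl fun k hk => ?_
  have hk' : k ≠ j := Finset.ne_of_mem_erase hk
  rw [Equiv.Perm.mul_apply, Equiv.Perm.mul_apply, h k hk', h k hk']

theorem hasFDerivAt_vec (b : ℝ × Cm d → Fin d → Bi d) (q : ℝ × Cm d)
    (hb : ∀ k, DifferentiableAt ℝ (fun q => b q k) q) (h : ℝ × Cm d) :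
    fderiv ℝ (fun q => vec (b q)) q h = ∑ τ : Equiv.Perm (Ix d),
      (((Equiv.Perm.sign τ : ℤ) : ℝ) * ∑ j, pr (b q) j τ *
        fderiv ℝ (fun q => b q j) q h (bas (τ (some (j, false)))) (bas (τ (some (j, true))))) •
      bas (τ none) := by
  have h1 : ∀ (k : Fin d) (u v : ℝ × Cm d), HasFDerivAt (fun q => b q k u v)
      (((fderiv ℝ (fun q => b q k) q).flip u).flip v) q := by
    intro k u v
    have h2 := (hb k).hasFDerivAt
    have h3 := h2.clm_apply (hasFDerivAt_const u q)
    have h4 := h3.clm_apply (hasFDerivAt_const v q)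
    refine h4.congr_fderiv ?_
    ext x <;> simp
  have h5 : ∀ τ : Equiv.Perm (Ix d), HasFDerivAt (fun q => ∏ k, b q k (bas (τ (some (k, false))))
      (bas (τ (some (k, true))))) (∑ j, pr (b q) j τ •
        (((fderiv ℝ (fun q => b q j) q).flip (bas (τ (some (j, false))))).flip
          (bas (τ (some (j, true)))))) q := by
    intro τ
    exact HasFDerivAt.finsetProd (u := Finset.univ) (fun k _ => h1 k _ _)
  have h6 : HasFDerivAt (fun q => vec (b q)) (∑ τ : Equiv.Perm (Ix d),
      ((((Equiv.Perm.sign τ : ℤ) : ℝ) • ∑ j, pr (b q) j τ •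
        (((fderiv ℝ (fun q => b q j) q).flip (bas (τ (some (j, false))))).flip
          (bas (τ (some (j, true)))))).smulRight (bas (τ none)))) q := by
    refine HasFDerivAt.fun_sum fun τ _ => ?_
    exact ((h5 τ).const_mul _).smul_const _
  rw [h6.fderiv]
  simp

theorem term_zero (P : Equiv.Perm (Ix d) → ℝ) (j : Fin d) (B : (ℝ × Cm d) →L[ℝ] Bi d)
    (hB : ClosedB B)
    (hP : ∀ τ σ : Equiv.Perm (Ix d), (∀ k, k ≠ j → ∀ c, σ (some (k, c)) = some (k, c)) →
      P (τ * σ) = P τ) :
    ∑ τ : Equiv.Perm (Ix d), ((Equiv.Perm.sign τ : ℤ) : ℝ) * (P τ *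
      B (bas (τ none)) (bas (τ (some (j, false)))) (bas (τ (some (j, true))))) = 0 := by
  set f : Equiv.Perm (Ix d) → ℝ := fun τ => ((Equiv.Perm.sign τ : ℤ) : ℝ) * (P τ *
      B (bas (τ none)) (bas (τ (some (j, false)))) (bas (τ (some (j, true))))) with hf
  have hs : ∀ σ : Equiv.Perm (Ix d), ∑ τ, f (τ * σ) = ∑ τ, f τ := fun σ =>
    Equiv.sum_comp (Equiv.mulRight σ) f
  have n1 : (none : Ix d) ≠ some (j, false) := by simp
  have n2 : (none : Ix d) ≠ some (j, true) := by simp
  have n3 : (some (j, false) : Ix d) ≠ some (j, true) := by simp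
  have fix : ∀ k, k ≠ j → ∀ c, (some (k, c) : Ix d) ≠ none ∧ (some (k, c) : Ix d) ≠ some (j, false)
      ∧ (some (k, c) : Ix d) ≠ some (j, true) := by
    intro k hk c
    simp [hk]
  have e1 := hs (Equiv.swap (some (j, false)) (some (j, true)))
  have e2 := hs (Equiv.swap none (some (j, false)))
  have e3 := hs (Equiv.swap none (some (j, true)))
  have e4 := hs (Equiv.swap none (some (j, false)) * Equiv.swap (some (j, false)) (some (j, true)))
  have e5 := hs (Equiv.swap none (some (j, true)) * Equiv.swap (some (j, false)) (some (j, true)))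
  have key : ∀ τ, f τ + f (τ * Equiv.swap (some (j, false)) (some (j, true))) +
      f (τ * Equiv.swap none (some (j, false))) + f (τ * Equiv.swap none (some (j, true))) +
      f (τ * (Equiv.swap none (some (j, false)) *
        Equiv.swap (some (j, false)) (some (j, true)))) +
      f (τ * (Equiv.swap none (some (j, true)) *
        Equiv.swap (some (j, false)) (some (j, true)))) = 0 := by
    intro τ
    simp only [hf]
    rw [hP τ _ (fun k hk c => Equiv.swap_apply_of_ne_of_ne (fix k hk c).2.1 (fix k hk c).2.2),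
      hP τ _ (fun k hk c => Equiv.swap_apply_of_ne_of_ne (fix k hk c).1 (fix k hk c).2.1),
      hP τ _ (fun k hk c => Equiv.swap_apply_of_ne_of_ne (fix k hk c).1 (fix k hk c).2.2),
      hP τ (Equiv.swap none (some (j, false)) * Equiv.swap (some (j, false)) (some (j, true)))
        (fun k hk c => by
          rw [Equiv.Perm.mul_apply,
            Equiv.swap_apply_of_ne_of_ne (fix k hk c).2.1 (fix k hk c).2.2,
            Equiv.swap_apply_of_ne_of_ne (fix k hk c).1 (fix k hk c).2.1]),
      hP τ (Equiv.swap none (some (j, true)) * Equiv.swap (some (j, false)) (some (j, true)))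
        (fun k hk c => by
          rw [Equiv.Perm.mul_apply,
            Equiv.swap_apply_of_ne_of_ne (fix k hk c).2.1 (fix k hk c).2.2,
            Equiv.swap_apply_of_ne_of_ne (fix k hk c).1 (fix k hk c).2.2])]
    simp only [Equiv.Perm.mul_apply, Equiv.swap_apply_left, Equiv.swap_apply_right,
      Equiv.swap_apply_of_ne_of_ne n1 n2, Equiv.swap_apply_of_ne_of_ne n2.symm n3.symm,
      Equiv.swap_apply_of_ne_of_ne n1.symm n3,
      Equiv.Perm.sign_mul, Equiv.Perm.sign_swap n1, Equiv.Perm.sign_swap n2,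
      Equiv.Perm.sign_swap n3]
    have := hB (bas (τ none)) (bas (τ (some (j, false)))) (bas (τ (some (j, true))))
    push_cast
    linear_combination (((Equiv.Perm.sign τ : ℤ) : ℝ) * P τ) * this
  have h7 := Finset.sum_congr rfl (fun τ (_ : τ ∈ Finset.univ) => key τ)
  simp only [Finset.sum_add_distrib, Finset.sum_const_zero] at h7
  rw [e1, e2, e3, e4, e5] at h7
  linarith

theorem alg2 : Alg2Stmt := by
  intro d b q hb hc
  have h1 : ∀ i : Ix d, cd i (fderiv ℝ (fun q => vec (b q)) q (bas i)) =
      ∑ τ : Equiv.Perm (Ix d), (((Equiv.Perm.sign τ : ℤ) : ℝ) * ∑ j, pr (b q) j τ *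
        fderiv ℝ (fun q => b q j) q (bas i) (bas (τ (some (j, false))))
          (bas (τ (some (j, true))))) * (if i = τ none then 1 else 0) := by
    intro i
    rw [hasFDerivAt_vec b q hb, cd_sum]
    refine Finset.sum_congr rfl fun τ _ => ?_
    rw [cd_smul, cd_bas]
  simp only [h1]
  rw [Finset.sum_comm]
  have h2 : ∀ τ : Equiv.Perm (Ix d), ∑ i : Ix d, (((Equiv.Perm.sign τ : ℤ) : ℝ) *
      ∑ j, pr (b q) j τ * fderiv ℝ (fun q => b q j) q (bas i) (bas (τ (some (j, false))))
          (bas (τ (some (j, true))))) * (if i = τ none then 1 else 0) =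
      ∑ j, ((Equiv.Perm.sign τ : ℤ) : ℝ) * (pr (b q) j τ *
        fderiv ℝ (fun q => b q j) q (bas (τ none)) (bas (τ (some (j, false))))
          (bas (τ (some (j, true))))) := by
    intro τ
    rw [Finset.sum_eq_single (τ none)]
    · rw [if_pos rfl, mul_one, Finset.mul_sum]
    · intro i _ hi
      rw [if_neg hi, mul_zero]
    · intro h
      exact absurd (Finset.mem_univ _) h
  simp only [h2]
  rw [Finset.sum_comm]
  refine Finset.sum_eq_zero fun j _ => ?_
  exact term_zero (pr (b q) j) j _ (hc j) (fun τ σ h => pr_mul (b q) j τ σ h)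

end Vale.Agent.P281.H399.K
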